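import Vale.Agent.P275.H341.Psh
import Vale.Agent.P275.R2.H894.Ex

/-!
# Row HK: the hook product to second order
-/

set_option linter.all false

namespace Vale.Agent.P275.R2.H109

open Filter Topology Vale.Agent.P275.H341 Vale.Agent.P275.R2.H894
open scoped BigOperators

theorem two_tri (x : ℕ) : 2 * (x * (x + 1) / 2) = x * (x + 1) :=
  Nat.two_mul_div_two_of_even (Nat.even_mul_succ_self x)

theorem two_choose (b : ℕ) : 2 * b.choose 2 + b = b * b := by
  induction b with
  | zero => rfl
  | succ b ih =>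
    rw [Nat.choose_succ_succ' b 1, Nat.choose_one_right]
    nlinarith

theorem pointwise (l b : ℕ) : (l + b) * (l + b + 1) / 2 + b.choose 2 =
    b * (l + b) + l * (l + 1) / 2 := by
  have h1 := two_tri (l + b)
  have h2 := two_tri l
  have h3 := two_choose b
  have h4 : 2 * ((l + b) * (l + b + 1) / 2 + b.choose 2) + b =
      2 * (b * (l + b) + l * (l + 1) / 2) + b := by
    have e1 : 2 * ((l + b) * (l + b + 1) / 2 + b.choose 2) + b =
        2 * ((l + b) * (l + b + 1) / 2) + (2 * b.choose 2 + b) := by ring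
    have e2 : 2 * (b * (l + b) + l * (l + 1) / 2) + b =
        2 * (b * (l + b)) + 2 * (l * (l + 1) / 2) + b := by ring
    rw [e1, e2, h1, h2, h3]
    ring
  omega

theorem sum_choose : ∀ k : ℕ, ∑ i : Fin k, (k - 1 - (i : ℕ)).choose 2 = k.choose 3
  | 0 => rfl
  | k + 1 => by
    rw [Fin.sum_univ_succ]
    have h := sum_choose k
    have e : ∀ i : Fin k, (k + 1 - 1 - ((i.succ : Fin (k + 1)) : ℕ)).choose 2 =
        (k - 1 - (i : ℕ)).choose 2 := by
      intro i
      congr 1
      simp only [Fin.val_succ]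
      omega
    rw [Finset.sum_congr rfl fun i _ => e i, h]
    simp only [Fin.val_zero, Nat.add_sub_cancel, Nat.sub_zero]
    rw [Nat.choose_succ_succ' k 2]

theorem exponents (k : ℕ) (lam : Fin k → ℕ) :
    k.choose 3 + ∑ i : Fin k, (lam i + (k - 1 - i)) * (lam i + (k - 1 - i) + 1) / 2 =
      ∑ i : Fin k, (k - 1 - i) * (lam i + (k - 1 - i)) + ∑ i : Fin k, lam i * (lam i + 1) / 2 := by
  rw [← sum_choose k, add_comm, ← Finset.sum_add_distrib, ← Finset.sum_add_distrib]
  exact Finset.sum_congr rfl fun i _ => pointwise _ _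

theorem sum_succ (d a : ℕ) : ∑ t ∈ Finset.range a, d * (t + 1) = d * (a * (a + 1) / 2) := by
  have h : 2 * ∑ t ∈ Finset.range a, (t + 1) = a * (a + 1) := by
    induction a with
    | zero => rfl
    | succ a ih =>
      rw [Finset.sum_range_succ, mul_add, ih]
      ring
  rw [← Finset.mul_sum]
  congr 1
  have h2 := two_tri a
  omega

/-- the number in the second coefficient -/
noncomputable def nu (d a : ℕ) : ℂ :=
  ∑ t ∈ Finset.range a, if d * (t + 1) = 0 + 1 then (-1 : ℂ) else 0

/-- the number in the second coefficient -/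
noncomputable def de (d : ℕ) {k : ℕ} (a : Fin k → ℕ) (i : Fin k) : ℂ :=
  ∑ j ∈ Finset.Ioi i, if d * a i = d * a j + 1 then (-1 : ℂ) else 0

theorem hkEx (d k : ℕ) (hd : 1 ≤ d) (lam : Fin k → ℕ)
    (h : ∀ i j : Fin k, i < j → lam j + (k - 1 - j) < lam i + (k - 1 - i)) :
    Ex (fun q => hk ((q : ℂ) ^ d) lam) (d * ∑ i, lam i * (lam i + 1) / 2) 1
      (∑ i : Fin k, (nu d (lam i + (k - 1 - i)) -
        de d (fun i : Fin k => lam i + (k - 1 - i)) i)) := by
  have hn1 : Ex (fun q : ℕ => ((q : ℂ) ^ d) ^ (k.choose 3)) (d * k.choose 3) 1 0 :=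
    (Ex.qpow (d * k.choose 3)).congr fun q => by rw [pow_mul]
  have hn2 : Ex (fun q : ℕ => ∏ i : Fin k, ∏ t ∈ Finset.range (lam i + (k - 1 - i)),
      (((q : ℂ) ^ d) ^ (t + 1) - 1))
      (∑ i : Fin k, ∑ t ∈ Finset.range (lam i + (k - 1 - i)), d * (t + 1)) 1
      (∑ i : Fin k, nu d (lam i + (k - 1 - i))) := by
    refine Ex.prod _ fun i _ => Ex.prod _ fun t _ => ?_
    refine (Ex.qsub (A := d * (t + 1)) (B := 0) (by positivity)).congr fun q => ?_
    rw [pow_mul, pow_zero]
  have hdn : Ex (fun q : ℕ => ∏ i : Fin k, ∏ j ∈ Finset.Ioi i,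
      (((q : ℂ) ^ d) ^ (lam i + (k - 1 - i)) - ((q : ℂ) ^ d) ^ (lam j + (k - 1 - j))))
      (∑ i : Fin k, ∑ _j ∈ Finset.Ioi i, d * (lam i + (k - 1 - i))) 1
      (∑ i : Fin k, de d (fun i : Fin k => lam i + (k - 1 - i)) i) := by
    refine Ex.prod _ fun i _ => Ex.prod _ fun j hj => ?_
    have hij := h i j (Finset.mem_Ioi.1 hj)
    refine (Ex.qsub (A := d * (lam i + (k - 1 - i))) (B := d * (lam j + (k - 1 - j)))
      (Nat.mul_lt_mul_of_pos_left hij hd)).congr fun q => ?_
    rw [pow_mul, pow_mul]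
  have hE : d * k.choose 3 + ∑ i : Fin k, ∑ t ∈ Finset.range (lam i + (k - 1 - i)), d * (t + 1) =
      d * ∑ i, lam i * (lam i + 1) / 2 +
        ∑ i : Fin k, ∑ _j ∈ Finset.Ioi i, d * (lam i + (k - 1 - i)) := by
    have e1 : ∀ i : Fin k, ∑ t ∈ Finset.range (lam i + (k - 1 - i)), d * (t + 1) =
        d * ((lam i + (k - 1 - i)) * (lam i + (k - 1 - i) + 1) / 2) := fun i => sum_succ d _
    have e2 : ∀ i : Fin k, ∑ _j ∈ Finset.Ioi i, d * (lam i + (k - 1 - i)) =
        d * ((k - 1 - i) * (lam i + (k - 1 - i))) := by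
      intro i
      rw [Finset.sum_const, Fin.card_Ioi, smul_eq_mul]
      ring
    rw [Finset.sum_congr rfl fun i _ => e1 i, Finset.sum_congr rfl fun i _ => e2 i,
      ← Finset.mul_sum, ← Finset.mul_sum, ← mul_add, ← mul_add, exponents, add_comm]
  have hnum := hn1.mul hn2
  rw [hE, mul_one, zero_mul, zero_add, one_mul] at hnum
  have hres := hnum.div hdn
  rw [one_mul, ← Finset.sum_sub_distrib] at hres
  exact hres

theorem lt_of_antitone {k : ℕ} {lam : Fin k → ℕ} (h : lam ∈ Pt k) (i j : Fin k) (hij : i < j) :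
    lam j + (k - 1 - j) < lam i + (k - 1 - i) := by
  have h1 := (Finset.mem_filter.1 h).2 i j hij.le
  have h2 : (i : ℕ) < j := hij
  have h3 := j.2
  omega

theorem hk1 (d k : ℕ) (lam : Fin k → ℕ) (hd : 1 ≤ d) (h : lam ∈ Pt k) :
    ∃ b : ℂ, Ex (fun q => hk ((q : ℂ) ^ d) lam) (d * ∑ i, lam i * (lam i + 1) / 2) 1 b :=
  ⟨_, hkEx d k hd lam (lt_of_antitone h)⟩

theorem nu_one (a : ℕ) : nu 1 a = if 0 < a then -1 else 0 := by
  unfold nu
  have e : ∀ t ∈ Finset.range a, (if 1 * (t + 1) = 0 + 1 then (-1 : ℂ) else 0) =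
      if t = 0 then -1 else 0 := by
    intro t _
    by_cases ht : t = 0
    · rw [if_pos ht, if_pos (by omega)]
    · rw [if_neg ht, if_neg (by omega)]
  rw [Finset.sum_congr rfl e, Finset.sum_ite_eq']
  simp only [Finset.mem_range]

theorem nu_two (d a : ℕ) (hd : 2 ≤ d) : nu d a = 0 := by
  unfold nu
  refine Finset.sum_eq_zero fun t _ => if_neg ?_
  intro h
  have : d ∣ 1 := ⟨t + 1, by omega⟩
  have := Nat.le_of_dvd one_pos this
  omega

theorem de_two (d : ℕ) {k : ℕ} (a : Fin k → ℕ) (i : Fin k) (hd : 2 ≤ d) : de d a i = 0 := by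
  unfold de
  refine Finset.sum_eq_zero fun t _ => if_neg ?_
  intro h
  have h1 : d ∣ d * a t + 1 := h ▸ Dvd.intro _ rfl
  have h2 : d ∣ 1 := (Nat.dvd_add_right (Dvd.intro _ rfl)).1 h1
  have := Nat.le_of_dvd one_pos h2
  omega

theorem hk2 (d k : ℕ) (lam : Fin (k + 1) → ℕ) (hd : 1 ≤ d) (h0 : lam 0 = k + 1)
    (h1 : ∀ i, i ≠ 0 → lam i = 0) :
    Ex (fun q => hk ((q : ℂ) ^ d) lam) (d * ((k + 1) * (k + 2) / 2)) 1
      (if d = 1 then -1 else 0) := by
  have hlt : ∀ i j : Fin (k + 1), i < j →
      lam j + (k + 1 - 1 - j) < lam i + (k + 1 - 1 - i) := by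
    intro i j hij
    have h2 : (i : ℕ) < j := hij
    have h3 := j.2
    have h4 : lam j = 0 := h1 j (by rintro rfl; exact absurd h2 (by simp))
    omega
  have h := hkEx d (k + 1) hd lam hlt
  have hsum : ∑ i, lam i * (lam i + 1) / 2 = (k + 1) * (k + 2) / 2 := by
    rw [Fin.sum_univ_succ, h0]
    have : ∀ i : Fin k, lam i.succ * (lam i.succ + 1) / 2 = 0 := by
      intro i
      rw [h1 _ (Fin.succ_ne_zero i)]
    rw [Finset.sum_congr rfl fun i _ => this i, Finset.sum_const_zero, add_zero]
  rw [hsum] at h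
  have hb : (∑ i : Fin (k + 1), (nu d (lam i + (k + 1 - 1 - i)) -
      de d (fun i : Fin (k + 1) => lam i + (k + 1 - 1 - i)) i)) = if d = 1 then -1 else 0 := by
    by_cases hd1 : d = 1
    · subst hd1
      rw [if_pos rfl]
      have hi : ∀ i : Fin (k + 1), (nu 1 (lam i + (k + 1 - 1 - i)) -
          de 1 (fun i : Fin (k + 1) => lam i + (k + 1 - 1 - i)) i) = if i = 0 then -1 else 0 := by
        intro i
        rw [nu_one]
        by_cases hi0 : i = 0
        · subst hi0
          rw [if_pos rfl, if_pos (by rw [h0]; omega)]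
          have : de 1 (fun i : Fin (k + 1) => lam i + (k + 1 - 1 - i)) 0 = 0 := by
            unfold de
            refine Finset.sum_eq_zero fun j hj => if_neg ?_
            have hj1 : (0 : Fin (k + 1)) < j := Finset.mem_Ioi.1 hj
            have hj2 : (0 : ℕ) < j := hj1
            have h4 : lam j = 0 := h1 j (by rintro rfl; exact absurd hj2 (by simp))
            simp only [h0, h4, Fin.val_zero]
            omega
          rw [this, sub_zero]
        · rw [if_neg hi0, h1 i hi0]
          have hipos : 0 < (i : ℕ) := Nat.pos_of_ne_zero fun e => hi0 (Fin.ext e)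
          unfold de
          by_cases hik : (i : ℕ) < k
          · rw [if_pos (by omega)]
            have hs : ∀ j ∈ Finset.Ioi i, (if 1 * (lam i + (k + 1 - 1 - (i : ℕ))) =
                1 * (lam j + (k + 1 - 1 - (j : ℕ))) + 1 then (-1 : ℂ) else 0) =
                if j = ⟨(i : ℕ) + 1, by omega⟩ then -1 else 0 := by
              intro j hj
              have hj1 : i < j := Finset.mem_Ioi.1 hj
              have hj2 : (i : ℕ) < j := hj1
              have h4 : lam j = 0 := h1 j (by rintro rfl; exact absurd hj2 (by simp))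
              have hjk := j.2
              rw [h1 i hi0, h4]
              by_cases e : (j : ℕ) = (i : ℕ) + 1
              · rw [if_pos (by omega), if_pos (Fin.ext e)]
              · rw [if_neg (by omega), if_neg (fun e' => e (congrArg Fin.val e'))]
            rw [Finset.sum_congr rfl hs, Finset.sum_ite_eq', if_pos (Finset.mem_Ioi.2 (by
              rw [Fin.lt_def]; simp))]
            ring
          · have hik' : (i : ℕ) = k := by have := i.2; omega
            rw [if_neg (by omega)]
            have : Finset.Ioi i = ∅ := by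
              ext j
              simp only [Finset.mem_Ioi, Finset.notMem_empty, iff_false, not_lt]
              rw [Fin.le_def]
              have := j.2
              omega
            rw [this, Finset.sum_empty, sub_zero]
      rw [Finset.sum_congr rfl fun i _ => hi i, Finset.sum_ite_eq']
      simp
    · rw [if_neg hd1]
      refine Finset.sum_eq_zero fun i _ => ?_
      rw [nu_two d _ (by omega), de_two d _ _ (by omega), sub_zero]
  rw [hb] at h
  exact h

end Vale.Agent.P275.R2.H109
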