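import Vale.Agent.P275.R2.H894.Rows
import Vale.Agent.P275.R2.H109.HK0

/-!
# Row HK
-/

namespace Vale.Agent.P275.R2.H109

open Vale.Agent.P275.R2.H894

theorem rowHK1 : RowHK1 := fun d k lam hd h => hk1 d k lam hd h

theorem rowHK2 : RowHK2 := fun d k lam hd h0 h1 => hk2 d k lam hd h0 h1

end Vale.Agent.P275.R2.H109
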